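import Vale.Agent.P069.WT.Main
import Vale.Agent.P069.JT.Sum
import Vale.Agent.P069.JT.Basis
import Vale.Agent.P069.JT.Tree
import Vale.Agent.P069.JT.Beta
import Vale.Agent.P069.H778.Mid

open TopologicalSpace Vale.Agent.P069 Vale.Agent.P069.H778 Vale.Agent.P069.JT

namespace Vale.Agent.Results.P069.NonUniversal

theorem result :
    ¬ Q1 ∧
    (∀ (W : Type) [NormedAddCommGroup W] [NormedSpace ℝ W] [CompleteSpace W] [SeparableSpace W],
      IsReflexive W →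
      ∃ (Z : Type) (_ : NormedAddCommGroup Z) (_ : NormedSpace ℝ Z),
        CompleteSpace Z ∧ SeparableSpace Z ∧ ¬ FiniteDimensional ℝ Z ∧ IsReflexive Z ∧
        IsAMUC (normSeminorm ℝ Z) ∧ IsAUS (normSeminorm ℝ Z) ∧
        (∀ t : ℝ, 0 < t →
          ((Real.sqrt (1 + t ^ 2 / 24) - 1 : ℝ) : EReal) ≤ amucModulus (normSeminorm ℝ Z) t ∧
          ausModulus (normSeminorm ℝ Z) t ≤ ((Real.sqrt (1 + t ^ 2) - 1 : ℝ) : EReal)) ∧
        ¬ AUCRenormable Z ∧ ¬ BetaRenormable Z ∧ HasMonotoneBasis Z ∧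
        (∀ (k : ℕ) (D : ℝ), EmbedsWith (diamond k) Z D → Real.sqrt (1 + k / 24) ≤ D) ∧
        (∀ n : ℕ, EmbedsWith (tree n) Z (Real.sqrt 2)) ∧
        ¬ ∃ (J : Z →L[ℝ] W) (c : ℝ), 0 < c ∧ ∀ z, c * ‖z‖ ≤ ‖J z‖) ∧
    ∃ (Z : Type) (_ : NormedAddCommGroup Z) (_ : NormedSpace ℝ Z),
      CompleteSpace Z ∧ SeparableSpace Z ∧ ¬ FiniteDimensional ℝ Z ∧ IsReflexive Z ∧
      IsAMUC (normSeminorm ℝ Z) ∧ IsAUS (normSeminorm ℝ Z) ∧
      (∀ t : ℝ, 0 < t →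
        ((Real.sqrt (1 + t ^ 2 / 24) - 1 : ℝ) : EReal) ≤ amucModulus (normSeminorm ℝ Z) t ∧
        ausModulus (normSeminorm ℝ Z) t ≤ ((Real.sqrt (1 + t ^ 2) - 1 : ℝ) : EReal)) ∧
      ¬ AUCRenormable Z ∧ ¬ BetaRenormable Z ∧ IsSumOfHilbertian Z ∧ HasMonotoneBasis Z ∧
      (∀ (k : ℕ) (D : ℝ), EmbedsWith (diamond k) Z D → Real.sqrt (1 + k / 24) ≤ D) ∧
      ∀ n : ℕ, EmbedsWith (tree n) Z (Real.sqrt 2) := by
  have key : ∀ (W : Type) [NormedAddCommGroup W] [NormedSpace ℝ W] [CompleteSpace W]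
      [SeparableSpace W], IsReflexive W →
      ∃ (Z : Type) (_ : NormedAddCommGroup Z) (_ : NormedSpace ℝ Z),
        CompleteSpace Z ∧ SeparableSpace Z ∧ ¬ FiniteDimensional ℝ Z ∧ IsReflexive Z ∧
        IsAMUC (normSeminorm ℝ Z) ∧ IsAUS (normSeminorm ℝ Z) ∧
        (∀ t : ℝ, 0 < t →
          ((Real.sqrt (1 + t ^ 2 / 24) - 1 : ℝ) : EReal) ≤ amucModulus (normSeminorm ℝ Z) t ∧
          ausModulus (normSeminorm ℝ Z) t ≤ ((Real.sqrt (1 + t ^ 2) - 1 : ℝ) : EReal)) ∧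
        ¬ AUCRenormable Z ∧ ¬ BetaRenormable Z ∧ HasMonotoneBasis Z ∧
        (∀ (k : ℕ) (D : ℝ), EmbedsWith (diamond k) Z D → Real.sqrt (1 + k / 24) ≤ D) ∧
        (∀ n : ℕ, EmbedsWith (tree n) Z (Real.sqrt 2)) ∧
        ¬ ∃ (J : Z →L[ℝ] W) (c : ℝ), 0 < c ∧ ∀ z, c * ‖z‖ ≤ ‖J z‖ := by
    intro W _ _ _ _ hW
    obtain ⟨T, hd, hr, hg, ht, hB, hJ⟩ := WT.exists_space W hW
    have hE := WT.dense_twoEst hd
    have hD := dense_twoAMUC_of hE
    have hN : ¬ AUCRenormable (StrongDual ℝ (WT.YT T)) :=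
      not_aucRenormable (κ := 1) one_pos hg
    refine ⟨StrongDual ℝ (WT.YT T), inferInstance, inferInstance, inferInstance,
      WT.separableSpace_dual hd, fun _ => hN aucRenormable_of_finiteDimensional, hr.dual,
      isAMUC_of_dense (by norm_num) hD, isAUS_of hE, fun t ht => ⟨?_, ausModulus_le hE ht⟩,
      hN, fun h => hN (aucRenormable_of_beta h), hB, fun k D h => ?_, ht, hJ⟩
    · refine le_trans (le_of_eq ?_) (le_amucModulus (c := 1 / 12) (by norm_num) hD ht)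
      rw [show (1 : ℝ) / 12 * t ^ 2 / 2 = t ^ 2 / 24 by ring]
    · have := diamond_lower (c := 1 / 12) (by norm_num) hD k D h
      rwa [show (k : ℝ) * (1 / 12) / 2 = k / 24 by ring] at this
  have hE : Dense {u : lp XJ 2 | TwoEst (1 / 12) u} :=
    dense_twoEst_lp (by norm_num) dense_twoEst_XJ
  have hD : Dense {u : lp XJ 2 | TwoAMUC (1 / 12) u} := dense_twoAMUC_of hE
  have hN : ¬ AUCRenormable (lp XJ 2) :=
    not_aucRenormable (κ := 1) one_pos fun n => (goodTree_XJ n).lp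
  have hA : IsAMUC (normSeminorm ℝ (lp XJ 2)) := isAMUC_of_dense (by norm_num) hD
  have hF : ¬ FiniteDimensional ℝ (lp XJ 2) := fun _ => hN aucRenormable_of_finiteDimensional
  refine ⟨fun h => hN (h (lp XJ 2) hF (isReflexive_lp isReflexive_XJ)
    ⟨normSeminorm ℝ (lp XJ 2), isEquivNorm_norm, hA⟩), key, lp XJ 2, inferInstance,
    inferInstance, inferInstance, separableSpace_lp XJ, hF, isReflexive_lp isReflexive_XJ, hA,
    isAUS_of hE, fun t ht => ⟨?_, ausModulus_le hE ht⟩, hN, fun h => hN (aucRenormable_of_beta h),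
    ⟨XJ, inferInstance, inferInstance, fun n => ⟨cleXJ n⟩, ⟨LinearIsometryEquiv.refl ℝ _⟩⟩,
    Bas.exists_monotone_basis sys_XJ, fun k D h => ?_, embeds_tree_J⟩
  · refine le_trans (le_of_eq ?_) (le_amucModulus (c := 1 / 12) (by norm_num) hD ht)
    rw [show (1 : ℝ) / 12 * t ^ 2 / 2 = t ^ 2 / 24 by ring]
  · have := diamond_lower (c := 1 / 12) (by norm_num) hD k D h
    rwa [show (k : ℝ) * (1 / 12) / 2 = k / 24 by ring] at this

end Vale.Agent.Results.P069.NonUniversal
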